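import Vale.Agent.P225.H485.Rad

/-!
# P225: a metric between two multiples of a pulled back flat metric
-/

open Filter Topology MeasureTheory
open scoped ContDiff

namespace Vale.Agent.P225.H485

variable {n : ℕ}

theorem cont_quad (g : RMetric n) {c : ℝ → Rn n} (hc : ContDiff ℝ 1 c) :
    Continuous fun t => √(g.quad (c t) (deriv c t)) := by
  have h1 : Continuous (deriv c) := hc.continuous_deriv le_rfl
  have h2 : ∀ i, Continuous fun t => (deriv c t) i := fun i =>
    (EuclideanSpace.proj (𝕜 := ℝ) i).continuous.comp h1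
  unfold RMetric.quad
  refine Real.continuous_sqrt.comp (continuous_finsetSum _ fun i _ =>
    continuous_finsetSum _ fun j _ => ?_)
  have hg : Continuous fun t => g.G (c t) i j := (g.smooth i j).continuous.comp hc.continuous
  exact (hg.mul (h2 i)).mul (h2 j)

theorem length_nonneg (g : RMetric n) (c : ℝ → Rn n) : 0 ≤ g.length c :=
  intervalIntegral.integral_nonneg zero_le_one fun _ _ => Real.sqrt_nonneg _

theorem length_ge (g : RMetric n) {F : Rn n → Rn n} (hF : ContDiff ℝ ∞ F) {a : ℝ} (ha : 0 ≤ a)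
    (h1 : ∀ x v, a * ‖fderiv ℝ F x v‖ ^ 2 ≤ g.quad x v) {c : ℝ → Rn n} (hc : ContDiff ℝ 1 c) :
    √a * ‖F (c 1) - F (c 0)‖ ≤ g.length c := by
  have hd : ∀ t, HasDerivAt (fun t => F (c t)) (fderiv ℝ F (c t) (deriv c t)) t := fun t =>
    ((hF.differentiable (by simp)) (c t)).hasFDerivAt.comp_hasDerivAt t
      ((hc.differentiable (by simp)) t).hasDerivAt
  have hcont : Continuous fun t => fderiv ℝ F (c t) (deriv c t) := by
    have h2 : Continuous fun t => fderiv ℝ F (c t) :=
      (hF.continuous_fderiv (by simp)).comp hc.continuous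
    exact h2.clm_apply (hc.continuous_deriv le_rfl)
  have hint : ∫ t in (0 : ℝ)..1, fderiv ℝ F (c t) (deriv c t) = F (c 1) - F (c 0) :=
    intervalIntegral.integral_eq_sub_of_hasDerivAt (fun t _ => hd t)
      (hcont.intervalIntegrable _ _)
  rw [← hint]
  calc √a * ‖∫ t in (0 : ℝ)..1, fderiv ℝ F (c t) (deriv c t)‖
      ≤ √a * ∫ t in (0 : ℝ)..1, ‖fderiv ℝ F (c t) (deriv c t)‖ :=
        mul_le_mul_of_nonneg_left
          (intervalIntegral.norm_integral_le_integral_norm zero_le_one) (Real.sqrt_nonneg _)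
    _ = ∫ t in (0 : ℝ)..1, √a * ‖fderiv ℝ F (c t) (deriv c t)‖ :=
        (intervalIntegral.integral_const_mul _ _).symm
    _ ≤ ∫ t in (0 : ℝ)..1, √(g.quad (c t) (deriv c t)) := by
        refine intervalIntegral.integral_mono_on zero_le_one
          ((continuous_const.mul hcont.norm).intervalIntegrable _ _)
          ((cont_quad g hc).intervalIntegrable _ _) fun t _ => ?_
        have h3 := Real.sqrt_le_sqrt (h1 (c t) (deriv c t))
        rwa [Real.sqrt_mul ha, Real.sqrt_sq (norm_nonneg _)] at h3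

theorem dist_le_length (g : RMetric n) {c : ℝ → Rn n} (hc : ContDiff ℝ 1 c) :
    g.dist (c 0) (c 1) ≤ g.length c :=
  csInf_le ⟨0, fun _ ⟨c', _, _, _, hL⟩ => hL ▸ length_nonneg g c'⟩ ⟨c, hc, rfl, rfl, rfl⟩

theorem biLip (g : RMetric n) {F G : Rn n → Rn n} (hF : ContDiff ℝ ∞ F) (hG : ContDiff ℝ 1 G)
    (hFG : ∀ y, F (G y) = y) (hGF : ∀ x, G (F x) = x) {a b : ℝ} (ha : 0 ≤ a) (hb : 0 ≤ b)
    (h1 : ∀ x v, a * ‖fderiv ℝ F x v‖ ^ 2 ≤ g.quad x v)
    (h2 : ∀ x v, g.quad x v ≤ b * ‖fderiv ℝ F x v‖ ^ 2) (x y : Rn n) :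
    √a * ‖F x - F y‖ ≤ g.dist x y ∧ g.dist x y ≤ √b * ‖F x - F y‖ := by
  set c : ℝ → Rn n := fun t => G (F x + t • (F y - F x)) with hcdef
  have hc : ContDiff ℝ 1 c := hG.comp (by fun_prop)
  have hc0 : c 0 = x := by simp [hcdef, hGF]
  have hc1 : c 1 = y := by simp [hcdef, hGF]
  constructor
  · refine le_csInf ⟨_, c, hc, hc0, hc1, rfl⟩ ?_
    rintro L ⟨c', hc', h0, h1', rfl⟩
    have := length_ge g hF ha h1 hc'
    rw [h0, h1', norm_sub_rev] at this
    exact this
  · have hle := dist_le_length g hc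
    rw [hc0, hc1] at hle
    refine hle.trans ?_
    have hd : ∀ t, fderiv ℝ F (c t) (deriv c t) = F y - F x := by
      intro t
      have e1 : HasDerivAt (fun t => F (c t)) (fderiv ℝ F (c t) (deriv c t)) t :=
        ((hF.differentiable (by simp)) (c t)).hasFDerivAt.comp_hasDerivAt t
          ((hc.differentiable (by simp)) t).hasDerivAt
      have e2 : (fun t => F (c t)) = fun t : ℝ => F x + t • (F y - F x) := by
        ext1 t
        exact hFG _
      have e3 : HasDerivAt (fun t : ℝ => F x + t • (F y - F x)) (F y - F x) t := by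
        have := ((hasDerivAt_id t).smul_const (F y - F x)).const_add (F x)
        simpa using this
      rw [e2] at e1
      exact e1.unique e3
    have hbd : ∀ t, √(g.quad (c t) (deriv c t)) ≤ √b * ‖F x - F y‖ := by
      intro t
      have h3 := Real.sqrt_le_sqrt (h2 (c t) (deriv c t))
      rw [hd t, Real.sqrt_mul hb, Real.sqrt_sq (norm_nonneg _), norm_sub_rev] at h3
      exact h3
    calc g.length c ≤ ∫ _ in (0 : ℝ)..1, √b * ‖F x - F y‖ :=
          intervalIntegral.integral_mono_on zero_le_one ((cont_quad g hc).intervalIntegrable _ _)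
            intervalIntegrable_const fun t _ => hbd t
      _ = √b * ‖F x - F y‖ := by simp

end Vale.Agent.P225.H485
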