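import Vale.Agent.P225.AE.CountAll

/-!
# P225: the counting with a small parameter
-/

open MeasureTheory intervalIntegral Set Filter Topology

namespace Vale.Agent.P225.H485

open Vale.Agent.P225.AE

theorem exists_static_small {r : ℕ} (hr : 4 ≤ r) {κ : ℝ} (hκ : 0 < κ) :
    ∃ S : StaticData r, S.h ≤ 1 + κ ∧ 1 - κ ≤ S.x := by
  obtain ⟨J, t, ht0, htn, htm, ht1, hsum⟩ := exists_partition hr
  have hφ := F0_pos r
  set φ := F r 0 with hφdef
  set LS := ∑ j ∈ Finset.range J, e r (t j) * (F r (t j) - F r (t (j + 1))) +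
      e r (t J) * F r (t J) with hLS
  have hr1 : (0:ℝ) < (r:ℝ) + 1 := by positivity
  have hr4 : (4:ℝ) ≤ r := by exact_mod_cast hr
  have hFd : ∀ j < J, 0 ≤ F r (t j) - F r (t (j + 1)) := fun j hj => by
    rw [F_sub]
    exact integral_nonneg (htm j) fun u hu => f_nonneg r ((htn j).trans hu.1)
      (hu.2.trans (ht1 _ hj).le)
  have htel : ∑ j ∈ Finset.range J, (F r (t j) - F r (t (j + 1))) = φ - F r (t J) := by
    rw [Finset.sum_range_sub' (fun j => F r (t j)), ht0]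
  have hLS1 : LS ≤ φ := by
    have h1 : ∑ j ∈ Finset.range J, e r (t j) * (F r (t j) - F r (t (j + 1))) ≤
        ∑ j ∈ Finset.range J, (F r (t j) - F r (t (j + 1))) :=
      Finset.sum_le_sum fun j hj => by
        have hj' := Finset.mem_range.1 hj
        have := mul_le_mul_of_nonneg_right (e_le_one r (htn j) (ht1 j hj'.le)) (hFd j hj')
        linarith
    have h2 := mul_le_mul_of_nonneg_right (e_le_one r (htn J) (ht1 J le_rfl))
      (F_nonneg r (htn J) (ht1 J le_rfl).le)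
    rw [hLS]
    linarith
  set b : ℝ := (1 / (r + 1) + LS / φ) / 2 with hb
  set b1 : ℝ := (1 / (r + 1) + b) / 2 with hb1
  have h1 : 1 / ((r:ℝ) + 1) < LS / φ := by
    rw [div_lt_div_iff₀ hr1 hφ]
    rw [div_lt_iff₀ hr1] at hsum
    linarith
  have h2 : LS / φ ≤ 1 := by rw [div_le_one hφ]; exact hLS1
  have h3 : 0 < 1 / ((r:ℝ) + 1) := by positivity
  have hbb1 : b1 < b := by rw [hb1]; linarith
  have hb1r : 1 / ((r:ℝ) + 1) < b1 := by rw [hb1]; linarith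
  have hb0 : 0 ≤ b := by rw [hb]; linarith
  have hble : b ≤ 1 := by rw [hb]; linarith
  have hbLS : b * φ < LS := by
    have : b < LS / φ := by rw [hb]; linarith
    rwa [lt_div_iff₀ hφ] at this
  set η : ℝ := min (min (1 / 2) ((b - b1) / 4)) κ with hη
  have hη0 : 0 < η := lt_min (lt_min (by norm_num) (by linarith)) hκ
  have hη2 : η ≤ 1 / 2 := (min_le_left _ _).trans (min_le_left _ _)
  have hηκ : η ≤ κ := min_le_right _ _
  have hη4 : 4 * η ≤ b - b1 := by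
    have := (min_le_left (min (1 / 2) ((b - b1) / 4)) κ).trans (min_le_right _ _)
    linarith
  have hb1r' : 1 < (r + 1) * b1 := by
    rw [div_lt_iff₀ hr1] at hb1r
    linarith
  have hb1p : 0 < b1 := by linarith
  have hσb : ∀ j ≤ J, -(1 / 2) ≤ (e r (t j) - b) / 2 := fun j hj => by
    have := e_nonneg r (htn j) (ht1 j hj).le
    linarith
  have hcount := count_aux (r := r) (n := 2 * r + 3) ht0 hFd (F_nonneg r (htn J) (ht1 J le_rfl).le)
    hη0 hη2 hσb (by positivity) (by rw [← hφdef]; exact hbLS)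
  obtain ⟨n1, n2, n3, n4⟩ := nums (r := r) hη0 hη2 hb1p (by linarith) hb1r'
  refine ⟨⟨1 - b1 * η, 1 + η, J, t, fun j => 1 + η * ((e r (t j) - b) / 2), n1, n2, by linarith,
    n3, n4, ht0, htn, htm, ht1, fun j hj => s_pos hη0 hη2 (hσb j hj), fun j hj => s_mono hη0
      (by linarith [e_mono r (htn j) (htm j) (ht1 (j + 1) hj)]), fun j hj =>
    calc_aux hη0 hη2 hη4 (e_nonneg r (htn j) (ht1 j hj).le) (e_le_one r (htn j) (ht1 j hj))
      hb0 hble rfl, hcount⟩, by show 1 + η ≤ 1 + κ; linarith, ?_⟩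
  show 1 - κ ≤ 1 - b1 * η
  have : b1 * η ≤ 1 * η := mul_le_mul_of_nonneg_right (by linarith) hη0.le
  linarith

theorem count_all_small {r : ℕ} (hr : 4 ≤ r) {κ : ℝ} (hκ : 0 < κ) : ∃ (x h c : ℝ), 0 < x ∧ 1 ≤ h ∧
    h + ((r + 1 : ℕ) : ℝ) * x < ((r + 1 : ℕ) : ℝ) + 1 ∧ x ^ (2 * (r + 1) + 1) * h < 1 ∧
    h ≤ 1 + κ ∧ 1 - κ ≤ x ∧ 0 < c ∧
    ∀ᶠ k : ℕ in atTop, ∃ (Dm : ℕ) (θ : ℕ → ℕ),
      (∀ d, 2 ≤ d → d ≤ Dm → 0 < ∑ μ ∈ Finset.Icc (θ d) d, B5.Emul (r + 1) d μ ∧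
        ((d : ℝ) * (d + 2 * ((r + 1 : ℕ) : ℝ))) *
          (∑ μ ∈ Finset.Icc (θ d) d, (B5.Emul (r + 1) d μ : ℝ)) -
        (1 - 1 / h) * (∑ μ ∈ Finset.Icc (θ d) d, ((μ : ℝ) ^ 2 * B5.Emul (r + 1) d μ)) <
        x * (k * (k + 2 * ((r + 1 : ℕ) : ℝ))) *
          (∑ μ ∈ Finset.Icc (θ d) d, (B5.Emul (r + 1) d μ : ℝ))) ∧
      (1 + c) * (hE r k : ℝ) <
        ((∑ d ∈ Finset.Icc 2 Dm, ∑ μ ∈ Finset.Icc (θ d) d, B5.Emul (r + 1) d μ : ℕ) : ℝ) := by
  obtain ⟨S, hSh, hSx⟩ := exists_static_small hr hκ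
  obtain ⟨c, hc0, hc⟩ := total_gt S
  refine ⟨S.x, S.h, c, S.hx, S.hh, ?_, S.start, hSh, hSx, hc0, ?_⟩
  · have := S.strict
    push_cast
    exact this
  have hcond : ∀ᶠ k : ℕ in atTop, ∀ j ∈ Finset.range (S.J + 1), ∀ d : ℕ, 2 ≤ d →
      (d:ℝ) ≤ S.s j * k →
      ((d : ℝ) * (d + 2 * ((r + 1 : ℕ) : ℝ))) * (NN r (S.t j) d : ℝ) -
        (1 - 1 / S.h) * (MM2 r (S.t j) d : ℝ) <
        S.x * (k * (k + 2 * ((r + 1 : ℕ) : ℝ))) * (NN r (S.t j) d : ℝ) := by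
    rw [eventually_all_finset]
    intro j hj
    have hj' : j ≤ S.J := Nat.lt_succ_iff.1 (Finset.mem_range.1 hj)
    exact cond_one r (S.tn j) (S.t1 j hj') (S.s0 j hj') S.hx S.hh (S.cond j hj')
  filter_upwards [hc, hcond] with k hc hcond
  refine ⟨Xk S k S.J, fun d => th (S.t (jd S.J (Xk S k) d)) d, ?_, ?_⟩
  · intro d hd hdX
    set j := jd S.J (Xk S k) d with hj
    have hjJ : j ≤ S.J := jd_le _ _ _
    have h1 := sum_one r (S.tn j) hd
    have h2 := sum_sq r (S.tn j) hd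
    have h1' : ∑ μ ∈ Finset.Icc (th (S.t j) d) d, (B5.Emul (r + 1) d μ : ℝ) =
        (NN r (S.t j) d : ℝ) := by
      rw [← h1]; push_cast; rfl
    have h2' : ∑ μ ∈ Finset.Icc (th (S.t j) d) d, ((μ : ℝ) ^ 2 * B5.Emul (r + 1) d μ) =
        (MM2 r (S.t j) d : ℝ) := by
      rw [← h2]; push_cast; rfl
    refine ⟨?_, ?_⟩
    · show 0 < ∑ μ ∈ Finset.Icc (th (S.t j) d) d, B5.Emul (r + 1) d μ
      rw [h1]; exact NN_pos _ _ _
    · show ((d : ℝ) * (d + 2 * ((r + 1 : ℕ) : ℝ))) *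
          (∑ μ ∈ Finset.Icc (th (S.t j) d) d, (B5.Emul (r + 1) d μ : ℝ)) -
        (1 - 1 / S.h) * (∑ μ ∈ Finset.Icc (th (S.t j) d) d, ((μ : ℝ) ^ 2 * B5.Emul (r + 1) d μ)) <
        S.x * (k * (k + 2 * ((r + 1 : ℕ) : ℝ))) *
          (∑ μ ∈ Finset.Icc (th (S.t j) d) d, (B5.Emul (r + 1) d μ : ℝ))
      rw [h1', h2']
      refine hcond j (Finset.mem_range.2 (Nat.lt_succ_of_le hjJ)) d hd ?_
      have h3 : d ≤ Xk S k j := le_X_jd hdX
      have h4 : (0:ℝ) ≤ S.s j * k := mul_nonneg (S.s0 j hjJ).le (Nat.cast_nonneg k)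
      exact (Nat.le_floor_iff h4).1 h3
  · refine lt_of_lt_of_eq hc ?_
    push_cast
    refine Finset.sum_congr rfl fun d hd => ?_
    have hd' := (Finset.mem_Icc.1 hd).1
    have h1 := sum_one r (S.tn (jd S.J (Xk S k) d)) hd'
    rw [← h1]
    push_cast
    rfl

end Vale.Agent.P225.H485
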