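import Vale.Agent.P225.YDefs

/-!
# P225: metrics which are `(1+ε)`-close to a flat metric
-/

open scoped ContDiff

namespace Vale.Agent.P225

/-- The metric `g` on `ℝⁿ` is `(1+ε)`-close to the flat metric: there is a diffeomorphism `F` of
`ℝⁿ` with `|dF_x v|² ≤ g_x(v,v) ≤ (1+ε)² |dF_x v|²` for all `x`, `v`, and
`|F x - F y| ≤ dist_g(x,y) ≤ (1+ε) |F x - F y|` for all `x`, `y`. -/
def NearFlat {n : ℕ} (g : RMetric n) (ε : ℝ) : Prop :=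
  ∃ F : Rn n ≃ Rn n, ContDiff ℝ ∞ F ∧ ContDiff ℝ ∞ F.symm ∧
    (∀ x v, ‖fderiv ℝ F x v‖ ^ 2 ≤ g.quad x v ∧
      g.quad x v ≤ (1 + ε) ^ 2 * ‖fderiv ℝ F x v‖ ^ 2) ∧
    ∀ x y, ‖F x - F y‖ ≤ g.dist x y ∧ g.dist x y ≤ (1 + ε) * ‖F x - F y‖

end Vale.Agent.P225
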