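import Vale.Agent.P225.H485.BiLip
import Vale.Agent.P225.H485.NearDefs
import Vale.Agent.P225.Bdl.B5

/-!
# P225: the metric of the data `D` is close to a flat metric
-/

open Filter Topology
open scoped ContDiff Matrix

namespace Vale.Agent.P225.H485

open Vale.Agent.P225.B

variable {n : ℕ}

/-- The inverse of the profile. -/
theorem exists_inv {φ σ : ℝ → ℝ} {s : ℝ} (hs : 0 < s) (hφs : ContDiff ℝ ∞ φ)
    (hφ : ∀ t, HasDerivAt φ (σ t) t) (hσ : ∀ t, s ≤ σ t) (h0 : ∀ t ≤ 0, φ t = t) :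
    ∃ ψ : ℝ → ℝ, ContDiff ℝ ∞ ψ ∧ (∀ t ≤ 0, ψ t = t) ∧ (∀ t, φ (ψ t) = t) ∧
      ∀ t, ψ (φ t) = t := by
  have hpos : ∀ t, 0 < σ t := fun t => hs.trans_le (hσ t)
  have hmono : StrictMono φ := strictMono_of_hasDerivAt_pos hφ hpos
  have hlow : ∀ t, 0 ≤ t → s * t ≤ φ t := by
    intro t ht
    have hd : ∀ u, HasDerivAt (fun u => φ u - s * u) (σ u - s * 1) u := fun u =>
      (hφ u).sub ((hasDerivAt_id u).const_mul s)
    have hm : Monotone fun u => φ u - s * u :=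
      monotone_of_hasDerivAt_nonneg hd fun u => by
        have := hσ u
        show (0 : ℝ) ≤ σ u - s * 1
        linarith
    have h1 := hm ht
    simp only [mul_zero, sub_zero] at h1
    rw [h0 0 le_rfl] at h1
    linarith
  have htop : Tendsto φ atTop atTop := by
    refine tendsto_atTop_mono' atTop (f₁ := fun t => s * t) ?_ (tendsto_id.const_mul_atTop hs)
    filter_upwards [eventually_ge_atTop 0] with t ht using hlow t ht
  have hbot : Tendsto φ atBot atBot := by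
    refine tendsto_id.congr' ?_
    filter_upwards [eventually_le_atBot 0] with t ht using (h0 t ht).symm
  have hsurj : Function.Surjective φ := hφs.continuous.surjective htop hbot
  let e : ℝ ≃o ℝ := hmono.orderIsoOfSurjective φ hsurj
  have he : (e.toHomeomorph : ℝ → ℝ) = φ := rfl
  have hsm : ContDiff ℝ ∞ (e.toHomeomorph.symm : ℝ → ℝ) :=
    e.toHomeomorph.contDiff_symm_deriv (f' := σ) (fun x => (hpos x).ne')
      (fun x => by rw [he]; exact hφ x) (by rw [he]; exact hφs)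
  have h1 : ∀ t, φ (e.toHomeomorph.symm t) = t := fun t => e.toHomeomorph.apply_symm_apply t
  have h2 : ∀ t, e.toHomeomorph.symm (φ t) = t := fun t => e.toHomeomorph.symm_apply_apply t
  refine ⟨e.toHomeomorph.symm, hsm, fun t ht => ?_, h1, h2⟩
  have := h2 t
  rwa [h0 t ht] at this

/-- Two-sided bound of the metric of the data. -/
theorem quad_between (D : BData n) {x : Rn n} (hx : x ≠ 0) (v : Rn n) {lo hi : ℝ} (hlo : lo ≤ 1)
    (hlo' : lo ≤ Real.exp (2 * D.η (Real.log ‖x‖))) (hhi : 1 ≤ hi)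
    (hhi' : Real.exp (2 * D.η (Real.log ‖x‖)) ≤ hi) :
    lo * ((Real.exp (D.φ (Real.log ‖x‖)) / ‖x‖) ^ 2 * ‖v‖ ^ 2) ≤ D.met.quad x v ∧
      D.met.quad x v ≤ hi * ((Real.exp (D.φ (Real.log ‖x‖)) / ‖x‖) ^ 2 * ‖v‖ ^ 2) := by
  have hp := norm_pos_iff.2 hx
  have hF := D.Fof_pos hx
  have hH := D.Hof_norm x
  have hb := bessel (D.J_skew (Real.log ‖x‖)) (D.J_sq (Real.log ‖x‖)) x.ofLp v.ofLp
  rw [BData.quad_eq, BData.met_G, BData.gmat, if_neg hx, mmat_quad]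
  rw [← norm_sq_eq, ← norm_sq_eq] at hb
  rw [← norm_sq_eq]
  have e1 : (Real.exp (D.φ (Real.log ‖x‖)) / ‖x‖) ^ 2 = D.Fof (‖x‖ ^ 2 / 2) := by
    rw [D.Fof_norm, div_pow, ← Real.exp_nat_mul]
    norm_num
  rw [e1, hH]
  set F := D.Fof (‖x‖ ^ 2 / 2)
  set a := (x.ofLp ⬝ᵥ v.ofLp) ^ 2
  set b := ((D.J (Real.log ‖x‖) *ᵥ x.ofLp) ⬝ᵥ v.ofLp) ^ 2
  set N := ‖x‖ ^ 2
  set V := ‖v‖ ^ 2
  set E := Real.exp (2 * D.η (Real.log ‖x‖))
  have hN : 0 < N := by positivity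
  have ha0 : 0 ≤ a := sq_nonneg _
  have hb0 : 0 ≤ b := sq_nonneg _
  have hu0 : 0 ≤ b / N := div_nonneg hb0 hN.le
  have hu1 : b / N ≤ V := by
    rw [div_le_iff₀ hN]
    linarith [mul_comm N V]
  have e2 : F * V + F * (E - 1) / N * b = F * (V + (E - 1) * (b / N)) := by
    field_simp
  rw [e2]
  constructor
  · have h1 : lo * V ≤ V + (E - 1) * (b / N) := by nlinarith
    calc lo * (F * V) = F * (lo * V) := by ring
      _ ≤ _ := mul_le_mul_of_nonneg_left h1 hF.le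
  · have h1 : V + (E - 1) * (b / N) ≤ hi * V := by nlinarith
    calc F * (V + (E - 1) * (b / N)) ≤ F * (hi * V) := mul_le_mul_of_nonneg_left h1 hF.le
      _ = hi * (F * V) := by ring

theorem quad_zero (D : BData n) (v : Rn n) : D.met.quad 0 v = ‖v‖ ^ 2 := by
  rw [BData.quad_eq, BData.met_G, D.gmat_of_norm_le (by simp), Matrix.one_mulVec, norm_sq_eq]

theorem fderiv_rad_zero {ψ : ℝ → ℝ} (h0 : ∀ t ≤ 0, ψ t = t) (v : Rn n) :
    fderiv ℝ (rad ψ) 0 v = v := by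
  have h : (rad ψ : Rn n → Rn n) =ᶠ[𝓝 0] id := by
    filter_upwards [Metric.ball_mem_nhds (0 : Rn n) one_pos] with y hy
    rw [mem_ball_zero_iff] at hy
    exact rad_of_norm_le h0 hy.le
  rw [h.fderiv_eq, fderiv_id]
  rfl

/-- **The metric of the data is `(1+ε)`-close to a flat one.** -/
theorem near_flat (D : BData n) {σ : ℝ → ℝ} (hφ : ∀ t, HasDerivAt D.φ (σ t) t) {s e0 δ ε : ℝ}
    (hs : 0 < s) (hσ : ∀ t, s ≤ σ t ∧ σ t ≤ 1) (he0 : 0 ≤ e0) (hδ : 0 ≤ δ)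
    (hη : ∀ t, -δ ≤ D.η t ∧ D.η t ≤ e0 + δ) (hε : 0 ≤ ε)
    (hsmall : Real.exp (2 * e0 + 4 * δ) ≤ s ^ 2 * (1 + ε) ^ 2) : NearFlat D.met ε := by
  obtain ⟨ψ, hψs, hψ0, hφψ, hψφ⟩ := exists_inv hs D.φ_smooth hφ (fun t => (hσ t).1) D.φ_init
  set lam : ℝ := Real.exp (-δ) with hlam
  have hlam0 : 0 < lam := Real.exp_pos _
  have hs1 : s ≤ 1 := (hσ 0).1.trans (hσ 0).2
  have hlam2 : lam ^ 2 = Real.exp (-2 * δ) := by
    rw [hlam, ← Real.exp_nat_mul]
    congr 1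
    push_cast
    ring
  let F : Rn n ≃ Rn n :=
    { toFun := fun x => lam • rad D.φ x
      invFun := fun y => rad ψ (lam⁻¹ • y)
      left_inv := fun x => by
        show rad ψ (lam⁻¹ • lam • rad D.φ x) = x
        rw [smul_smul, inv_mul_cancel₀ hlam0.ne', one_smul]
        exact rad_rad hψφ x
      right_inv := fun y => by
        show lam • rad D.φ (rad ψ (lam⁻¹ • y)) = y
        rw [rad_rad hφψ, smul_smul, mul_inv_cancel₀ hlam0.ne', one_smul] }
  have hrs : ContDiff ℝ ∞ (rad D.φ : Rn n → Rn n) := rad_contDiff D.φ_smooth D.φ_init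
  have hF : ContDiff ℝ ∞ F := by
    show ContDiff ℝ ∞ fun x => lam • rad D.φ x
    exact hrs.const_smul lam
  have hG : ContDiff ℝ ∞ F.symm := by
    show ContDiff ℝ ∞ fun y => rad ψ (lam⁻¹ • y)
    exact (rad_contDiff hψs hψ0).comp (contDiff_id.const_smul lam⁻¹)
  have hfd : ∀ x v, ‖fderiv ℝ F x v‖ ^ 2 = lam ^ 2 * ‖fderiv ℝ (rad D.φ) x v‖ ^ 2 := by
    intro x v
    have h1 : fderiv ℝ F x = lam • fderiv ℝ (rad D.φ) x := by
      show fderiv ℝ (fun x => lam • rad D.φ x) x = _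
      exact fderiv_fun_const_smul (hrs.differentiable (by simp) x) lam
    rw [h1, smul_apply, norm_smul, mul_pow, Real.norm_eq_abs, sq_abs]
  have hlow1 : Real.exp (-2 * δ) ≤ 1 := Real.exp_le_one_iff.2 (by linarith)
  have hhi1 : 1 ≤ Real.exp (2 * (e0 + δ)) := Real.one_le_exp (by linarith)
  have hq : ∀ x v, ‖fderiv ℝ F x v‖ ^ 2 ≤ D.met.quad x v ∧
      D.met.quad x v ≤ (1 + ε) ^ 2 * ‖fderiv ℝ F x v‖ ^ 2 := by
    intro x v
    rw [hfd, hlam2]
    -- the constant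
    have hc : Real.exp (2 * (e0 + δ)) ≤ s ^ 2 * (1 + ε) ^ 2 * Real.exp (-2 * δ) := by
      have h1 : Real.exp (2 * (e0 + δ)) = Real.exp (2 * e0 + 4 * δ) * Real.exp (-2 * δ) := by
        rw [← Real.exp_add]
        congr 1
        ring
      rw [h1]
      exact mul_le_mul_of_nonneg_right hsmall (Real.exp_pos _).le
    by_cases hx : x = 0
    · subst hx
      rw [quad_zero, fderiv_rad_zero D.φ_init]
      have hV : 0 ≤ ‖v‖ ^ 2 := sq_nonneg _
      constructor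
      · nlinarith
      · have h2 : s ^ 2 ≤ 1 := by nlinarith
        have h3 : 0 ≤ (1 + ε) ^ 2 * Real.exp (-2 * δ) := by positivity
        have h4 : s ^ 2 * (1 + ε) ^ 2 * Real.exp (-2 * δ) ≤ (1 + ε) ^ 2 * Real.exp (-2 * δ) := by
          nlinarith
        have h5 : 1 ≤ (1 + ε) ^ 2 * Real.exp (-2 * δ) := hhi1.trans (hc.trans h4)
        calc ‖v‖ ^ 2 = 1 * ‖v‖ ^ 2 := (one_mul _).symm
          _ ≤ (1 + ε) ^ 2 * Real.exp (-2 * δ) * ‖v‖ ^ 2 := mul_le_mul_of_nonneg_right h5 hV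
          _ = _ := by ring
    · obtain ⟨hη1, hη2⟩ := hη (Real.log ‖x‖)
      obtain ⟨hb1, hb2⟩ := quad_between D hx v (lo := Real.exp (-2 * δ))
        (hi := Real.exp (2 * (e0 + δ))) hlow1 (Real.exp_le_exp.2 (by linarith)) hhi1
        (Real.exp_le_exp.2 (by linarith))
      obtain ⟨hσ1, hσ2⟩ := hσ (Real.log ‖x‖)
      have hσ0 : 0 ≤ σ (Real.log ‖x‖) := hs.le.trans hσ1
      obtain ⟨hr1, hr2⟩ := rad_fderiv_bounds (q := s ^ 2) (pow_le_pow_left₀ hs.le hσ1 2)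
        (by nlinarith) hx (hφ (Real.log ‖x‖)) v
      set m := (Real.exp (D.φ (Real.log ‖x‖)) / ‖x‖) ^ 2 * ‖v‖ ^ 2
      have hm : 0 ≤ m := by positivity
      constructor
      · exact (mul_le_mul_of_nonneg_left hr2 (Real.exp_pos _).le).trans hb1
      · refine hb2.trans ?_
        calc Real.exp (2 * (e0 + δ)) * m ≤ s ^ 2 * (1 + ε) ^ 2 * Real.exp (-2 * δ) * m :=
              mul_le_mul_of_nonneg_right hc hm
          _ = (1 + ε) ^ 2 * Real.exp (-2 * δ) * (s ^ 2 * m) := by ring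
          _ ≤ (1 + ε) ^ 2 * Real.exp (-2 * δ) * ‖fderiv ℝ (rad D.φ) x v‖ ^ 2 :=
              mul_le_mul_of_nonneg_left hr1 (by positivity)
          _ = _ := by ring
  refine ⟨F, hF, hG, hq, fun x y => ?_⟩
  have h := biLip D.met hF (hG.of_le (by exact_mod_cast le_top)) (fun y => F.apply_symm_apply y)
    (fun x => F.symm_apply_apply x) zero_le_one (sq_nonneg (1 + ε))
    (fun x v => by rw [one_mul]; exact (hq x v).1) (fun x v => (hq x v).2) x y
  rw [Real.sqrt_one, one_mul, Real.sqrt_sq (by linarith)] at h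
  exact h

end Vale.Agent.P225.H485
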