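import Vale.Agent.P225.H485.CountSmall
import Vale.Agent.P225.H485.FinalNear

/-!
# P225: Yau's dimension comparison fails for metrics arbitrarily close to the flat one
-/

open Filter Topology

namespace Vale.Agent.P225.H485

open Vale.Agent.P225.AE

theorem small_aux {κ ε : ℝ} (h0 : 0 < κ) (h1 : κ ≤ 1 / 4) (h2 : κ ≤ ε / 8) :
    (1 + κ) * (1 + κ) ≤ (1 - κ) * (1 + ε) ^ 2 := by
  have h3 : 1 + 16 * κ ≤ (1 + ε) ^ 2 := by nlinarith [sq_nonneg ε]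
  have h4 : (1 - κ) * (1 + 16 * κ) ≤ (1 - κ) * (1 + ε) ^ 2 :=
    mul_le_mul_of_nonneg_left h3 (by linarith)
  nlinarith

theorem main_near {r : ℕ} (hr : 4 ≤ r) {ε : ℝ} (hε : 0 < ε) : ∃ c : ℝ, 0 < c ∧ ∀ᶠ k : ℕ in atTop,
    ∃ g : RMetric (2 * (r + 1) + 2), g.Complete ∧ g.RicciNonneg ∧ (∀ x, ‖x‖ ≤ 1 → g.G x = 1) ∧
      NearFlat g ε ∧ ∃ N : ℕ,
      (1 + c) * (hE r k : ℝ) < N ∧ ∃ v : Fin N → (Rn (2 * (r + 1) + 2) → ℝ),
        LinearIndependent ℝ v ∧ ∀ i, v i ∈ g.harm k := by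
  set κ : ℝ := min (1 / 4) (ε / 8) with hκdef
  have hκ : 0 < κ := lt_min (by norm_num) (by linarith)
  have hκ1 : κ ≤ 1 / 4 := min_le_left _ _
  have hκ2 : κ ≤ ε / 8 := min_le_right _ _
  obtain ⟨x, h, c, hx, hh, hhx, hxh, hhκ, hxκ, hc, hk⟩ := count_all_small hr hκ
  refine ⟨c, hc, ?_⟩
  have hlog : 0 < Real.log (1 + κ) := Real.log_pos (by linarith)
  have hsmall : h * Real.exp (4 * (Real.log (1 + κ) / 4)) ≤ x * (1 + ε) ^ 2 := by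
    rw [mul_div_cancel₀ _ (by norm_num : (4 : ℝ) ≠ 0), Real.exp_log (by linarith)]
    calc h * (1 + κ) ≤ (1 + κ) * (1 + κ) := mul_le_mul_of_nonneg_right hhκ (by linarith)
      _ ≤ (1 - κ) * (1 + ε) ^ 2 := small_aux hκ hκ1 hκ2
      _ ≤ x * (1 + ε) ^ 2 := mul_le_mul_of_nonneg_right hxκ (sq_nonneg _)
  filter_upwards [hk] with k hk
  obtain ⟨Dm, θ, hcount, htot⟩ := hk
  obtain ⟨g, hg, hR, hball, hnear, v, hv, hvh⟩ := final_near (m := r + 1) (by omega)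
    (B5.algOut (by omega)) (B5.eigOut (r + 1) (by omega)) hx hh hhx hxh hcount le_rfl
    (δ := Real.log (1 + κ) / 4) (ε := ε) (by positivity) hε.le hsmall
  exact ⟨g, hg, hR, hball, hnear, _, htot, v, hv, hvh⟩

theorem near_allEven (n : ℕ) (hn : Even n) (h12 : 12 ≤ n) (ε : ℝ) (hε : 0 < ε) :
    ∃ c : ℝ, 0 < c ∧ ∃ k₀ : ℕ, ∀ k : ℕ, k₀ ≤ k →
      ∃ g : RMetric n, g.Complete ∧ g.RicciNonneg ∧ (∀ x, ‖x‖ ≤ 1 → g.G x = 1) ∧
        NearFlat g ε ∧ ∃ N : ℕ,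
        (1 + c) * (((n + k - 1).choose k + (n + k - 2).choose (k - 1) : ℕ) : ℝ) < N ∧
        ∃ v : Fin N → (Rn n → ℝ), LinearIndependent ℝ v ∧ ∀ i, v i ∈ g.harm k := by
  obtain ⟨j, hj⟩ := hn
  obtain ⟨r, rfl⟩ : ∃ r, n = 2 * (r + 1) + 2 := ⟨j - 2, by omega⟩
  obtain ⟨c, hc, h⟩ := main_near (r := r) (by omega) hε
  obtain ⟨k₀, hk₀⟩ := eventually_atTop.1 h
  refine ⟨c, hc, k₀, fun k hk => ?_⟩
  have e1 : 2 * (r + 1) + 2 + k - 1 = 2 * (r + 1) + 1 + k := by omega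
  have e2 : 2 * (r + 1) + 2 + k - 2 = 2 * (r + 1) + k := by omega
  rw [e1, e2]
  exact hk₀ k hk

theorem yau_fails_twelve : ∃ g : RMetric 12, g.Complete ∧ g.RicciNonneg ∧ ∃ k : ℕ, 1 ≤ k ∧
    ∃ v : Fin ((12 + k - 1).choose k + (12 + k - 2).choose (k - 1) + 1) → (Rn 12 → ℝ),
      LinearIndependent ℝ v ∧ ∀ i, v i ∈ g.harm k := by
  obtain ⟨c, hc, k₀, h⟩ := near_allEven 12 ⟨6, rfl⟩ le_rfl 1 one_pos
  obtain ⟨g, hg, hR, -, -, N, hN, v, hv, hvh⟩ := h (max k₀ 1) (le_max_left _ _)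
  set k := max k₀ 1
  refine ⟨g, hg, hR, k, le_max_right _ _, ?_⟩
  have h1 : (12 + k - 1).choose k + (12 + k - 2).choose (k - 1) + 1 ≤ N := by
    have h2 : (((12 + k - 1).choose k + (12 + k - 2).choose (k - 1) : ℕ) : ℝ) < N := by
      refine lt_of_le_of_lt ?_ hN
      have h3 : (0 : ℝ) ≤ (((12 + k - 1).choose k + (12 + k - 2).choose (k - 1) : ℕ) : ℝ) :=
        Nat.cast_nonneg _
      nlinarith
    exact_mod_cast h2
  exact ⟨v ∘ Fin.castLE h1, hv.comp _ (Fin.castLE_injective h1), fun i => hvh _⟩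

end Vale.Agent.P225.H485
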