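import Vale.Agent.P225.Bdl.B5

/-!
# P225: the dynamics with a bound of `η`

The main theorem of the dynamical part with one more conclusion: `-δ ≤ η ≤ η₀ + δ`.  The pulses
have the amplitude `O(1 / r(t))`, which is at most `δ` when the first cycle starts late.
-/

set_option linter.all false

open Set Filter Topology
open scoped ContDiff

namespace Vale.Agent.P225.H485

open Vale.Agent.P225.B2

variable {D : Type} [Fintype D] {ι : D → Type} [∀ d, Fintype (ι d)] [∀ d, DecidableEq (ι d)]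
  {𝒥 : Type}

theorem rr_mono {s t : ℝ} (hs : 0 ≤ s) (h : s ≤ t) : rr s ≤ rr t :=
  Real.rpow_le_rpow hs h (by norm_num)

/-- The pulses are small. -/
theorem abs_ep_le {l : ℕ} {r : ℝ} (hr : 0 < r) {K : ℝ} (hK : ∀ x, |chi x| ≤ K) (t : ℝ)
    (c : Fin l → ℝ) (x : ℝ) : |ep r t c x| ≤ l * ‖c‖ * K / r := by
  unfold ep
  have h1 : ∀ i : Fin l, |r⁻¹ * c i * chi ((x - t) / r - (i : ℝ))| ≤ ‖c‖ * K / r := by
    intro i
    rw [abs_mul, abs_mul, abs_of_pos (inv_pos.2 hr)]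
    have h2 : |c i| ≤ ‖c‖ := by simpa [Real.norm_eq_abs] using norm_le_pi_norm c i
    have h3 := hK ((x - t) / r - (i : ℝ))
    have h4 : 0 ≤ K := (abs_nonneg _).trans h3
    have h5 : |c i| * |chi ((x - t) / r - (i : ℝ))| ≤ ‖c‖ * K :=
      mul_le_mul h2 h3 (abs_nonneg _) (norm_nonneg _)
    calc r⁻¹ * |c i| * |chi ((x - t) / r - (i : ℝ))| =
        (|c i| * |chi ((x - t) / r - (i : ℝ))|) / r := by
          rw [div_eq_mul_inv]; ring
      _ ≤ ‖c‖ * K / r := div_le_div_of_nonneg_right h5 hr.le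
  calc |∑ i : Fin l, r⁻¹ * c i * chi ((x - t) / r - (i : ℝ))|
      ≤ ∑ i : Fin l, |r⁻¹ * c i * chi ((x - t) / r - (i : ℝ))| :=
        Finset.abs_sum_le_sum_abs _ _
    _ ≤ ∑ _i : Fin l, ‖c‖ * K / r := Finset.sum_le_sum fun i _ => h1 i
    _ = l * ‖c‖ * K / r := by
        rw [Finset.sum_const, Finset.card_univ, Fintype.card_fin, nsmul_eq_mul]
        ring

theorem etaC_bounds {l : ℕ} {eta0 : ℝ} (h0 : 0 ≤ eta0) {K : ℝ} (hK : ∀ x, |chi x| ≤ K) {t : ℝ}
    (ht : 0 < t) (c : Fin l → ℝ) {δ : ℝ} (hδ : l * ‖c‖ * K ≤ δ * rr t) (x : ℝ) :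
    -δ ≤ etaC eta0 t c x ∧ etaC eta0 t c x ≤ eta0 + δ := by
  have hr := rr_pos ht
  have h1 := abs_ep_le hr hK t c x
  have h2 : l * ‖c‖ * K / rr t ≤ δ := by rwa [div_le_iff₀ hr]
  have h3 := abs_le.1 (h1.trans h2)
  have h4 := eh_nonneg h0 l t x
  have h5 := eh_le h0 l t x
  unfold etaC
  constructor
  · linarith only [h3.1, h4]
  · linarith only [h3.2, h5]

theorem main_of_eta (P : Dat D ι 𝒥) (Q : Ctl P) {δ : ℝ} (hδ : 0 < δ)
    (hcurv : ∀ R, CurvCycleStmt P Q.l R)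
    (hcore : ∀ a, 0 < a → CurvCoreStmt P.m P.Pinf a)
    (hstep : CycleStepStmt P Q) (hgrowth : GrowthStmt P Q) :
    ∃ (σ η φ : ℝ → ℝ) (J : ℝ → 𝒥) (K : ℝ),
      ContDiff ℝ ∞ σ ∧ ContDiff ℝ ∞ η ∧ ContDiff ℝ ∞ φ ∧ (∀ x, HasDerivAt φ (σ x) x) ∧
      (∀ x ≤ 0, σ x = 1 ∧ η x = 0 ∧ φ x = x) ∧ (∀ x, P.sig0 ≤ σ x ∧ σ x ≤ 1) ∧
      (∀ x, -δ ≤ η x ∧ η x ≤ P.eta0 + δ) ∧
      (∀ x, (∀ᶠ y in 𝓝 x, J y = J x) ∨ (∀ᶠ y in 𝓝 x, η y = 0)) ∧
      (∀ x, Curv P.m σ η x) ∧
      ∀ d, ∀ i ∈ Q.Sset d, ∃ w w1 : ℝ → (ι d → ℝ), ContDiff ℝ ∞ w ∧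
        (∀ x ≤ 0, w x = Real.exp (P.deg d * x) • Pi.single i 1) ∧
        Sol (fun x => 2 * P.m * σ x + deriv η x)
          (fun x => P.C d • (1 : (ι d → ℝ) →L[ℝ] (ι d → ℝ)) - beta (η x) • P.M (J x) d)
          univ w w1 ∧
        ∀ x, 0 ≤ x → ‖w x‖ ≤ K * Real.exp (Q.k * φ x) := by
  obtain ⟨ε0, hε0, hε0', hstep⟩ := hstep
  obtain ⟨a, ha, tst1, htst1, hcurv⟩ := hcurv (‖Q.c0‖ + 1)
  obtain ⟨tst2, htst2, hcore⟩ := hcore a ha
  obtain ⟨tst3, htst3, K, hK, hstep⟩ := hstep a ha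
  have hcd := fun d => Core.core P.m P.hm P.Pinf a P.hP0 P.hP1 ha (P.deg d) (P.hdeg d) ε0 hε0
  choose tst4 htst4 hcd using hcd
  obtain ⟨Kc, hKc0, hKc⟩ := Cyc.chi_bound
  obtain ⟨tst5, h5⟩ : ∃ tst5 : ℝ, ∀ t, tst5 ≤ t → Q.l * (‖Q.c0‖ + 1) * Kc / δ ≤ rr t :=
    eventually_atTop.1 (Cyc.tendsto_rr.eventually_ge_atTop _)
  obtain ⟨t0, h01, h02, h03, h04, h05⟩ : ∃ t0, tst1 ≤ t0 ∧ tst2 ≤ t0 ∧ tst3 ≤ t0 ∧
      (∀ d, tst4 d ≤ t0) ∧ tst5 ≤ t0 := by
    refine ⟨max (tst1 + tst2 + tst3 + ∑ d, |tst4 d|) tst5, le_max_of_le_left ?_,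
      le_max_of_le_left ?_, le_max_of_le_left ?_, fun d => le_max_of_le_left ?_, le_max_right _ _⟩
    · have : 0 ≤ ∑ d, |tst4 d| := Finset.sum_nonneg fun _ _ => abs_nonneg _
      (clear * - hε0 hε0' htst2 htst3 this; linarith)
    · have : 0 ≤ ∑ d, |tst4 d| := Finset.sum_nonneg fun _ _ => abs_nonneg _
      linarith only [htst1, htst3, this]
    · have : 0 ≤ ∑ d, |tst4 d| := Finset.sum_nonneg fun _ _ => abs_nonneg _
      linarith
    · have h1 : |tst4 d| ≤ ∑ d, |tst4 d| :=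
        Finset.single_le_sum (f := fun d => |tst4 d|) (fun _ _ => abs_nonneg _) (Finset.mem_univ d)
      linarith only [htst1, htst2, htst3, h1, le_abs_self (tst4 d)]
  have ht0 : 1 ≤ t0 := le_trans htst1 h01
  obtain ⟨hΨs, hΨ1, hΨ2, hΨ3, hΨ4⟩ := hcore t0 h02
  set Ψ := PsiG P.Pinf a t0 with hΨ
  have hsm := tq_strictMono (l := Q.l) ht0
  have htq : ∀ j, t0 ≤ tq Q.l t0 j := fun j => by
    have := hsm.monotone (Nat.zero_le j)
    exact this
  -- the scalar solutions in the core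
  have hf : ∀ d, ∃ f f1 : ℝ → ℝ, Sol (fun x => 2 * P.m * Ψ x)
      (fun _ => P.C d • (1 : ℝ →L[ℝ] ℝ)) univ f f1 ∧ f 0 = 1 ∧ f1 0 = P.deg d := fun d =>
    sol_exists (by have := hΨs.continuous; fun_prop) continuous_const 0 1 _
  choose f f1 hfS hf0 hf10 using hf
  have hfc : ∀ d, (∀ x ∈ Icc 0 t0, 1 ≤ f d x ∧ 0 < f1 d x) ∧
      |f1 d t0 - P.s d * f d t0| ≤ ε0 * (f1 d t0 + P.ss d * f d t0) := by
    intro d
    have := hcd d t0 (h04 d) (f d) (f1 d) (fun x _ => (hfS d).d0 x trivial) (fun x _ => by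
      refine ((hfS d).d1 x trivial).congr_deriv ?_
      simp only [Dat.C, smul_apply, one_apply_eq_self, smul_eq_mul]
      rfl) (hf0 d) (hf10 d)
    exact this
  have hs : ∀ d, 0 < P.s d := fun d => by
    unfold Dat.s sroot
    have h1 : 0 < P.C d := by
      unfold Dat.C
      have : (1 : ℝ) ≤ P.deg d := by exact_mod_cast P.hdeg d
      (clear * - this; positivity)
    have h2 : (P.m * P.Pinf : ℝ) < √((P.m * P.Pinf) ^ 2 + P.C d) := by
      apply Real.lt_sqrt_of_sq_lt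
      linarith only [h1]
    linarith only [h2]
  have hss : ∀ d, 0 < P.ss d := fun d => by
    unfold Dat.ss
    have := hs d
    have := P.hP0
    (clear hgrowth hε0 hε0' a ha tst1 htst1 hcurv tst2 htst2 hcore tst3 htst3 K hK hstep tst4 htst4 hcd t0 h01 h02 h03 h04 h05 ht0 Ψ hΨs hΨ1 hΨ2 hΨ3 hΨ4 hΨ hsm htq f f1 hfS hf0 hf10 hfc; positivity)
  have hρ : ∀ d, 0 < f1 d t0 + P.ss d * f d t0 := fun d => by
    have h1 := (hfc d).1 t0 ⟨by linarith only [htst1, h01], le_rfl⟩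
    have h2 := hss d
    have h3 : 0 < f d t0 := by linarith only [h1]
    have := h1.2
    (clear * - this h2 h3; positivity)
  -- the initial memory
  let Z0 : (d : D) → (ι d → ℝ) →L[ℝ] (ι d → ℝ) := fun d =>
    ((f1 d t0 - P.s d * f d t0) / (f1 d t0 + P.ss d * f d t0)) •
      (1 : (ι d → ℝ) →L[ℝ] (ι d → ℝ))
  have hZ0 : ∀ d, ‖Z0 d‖ ≤ ε0 := by
    intro d
    refine ContinuousLinearMap.opNorm_le_bound _ hε0.le fun x => ?_
    simp only [Z0, smul_apply, one_apply_eq_self, norm_smul,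
      Real.norm_eq_abs, abs_div, abs_of_pos (hρ d)]
    gcongr
    rw [div_le_iff₀ (hρ d)]
    exact (hfc d).2
  obtain ⟨Z, c, Λ, hZz, hZ, hc, hOK⟩ := exists_seq P Q Ψ K ε0 t0 (fun j Z hZ => by
    refine hstep (tq Q.l t0 j) (le_trans h03 (htq j)) Ψ hΨs (fun x hx => ?_) Z hZ
    have hx1 : t0 ≤ x := le_trans (htq j) hx.1
    exact ⟨(hΨ3 x).1, (hΨ2 x (by linarith only [htst1, h01, hx1])).le⟩) Z0 hZ0
  -- global functions
  have hcn : ∀ j, ‖c j‖ ≤ ‖Q.c0‖ + 1 := fun j => by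
    have h1 : c j = Q.c0 + (c j - Q.c0) := by abel
    calc ‖c j‖ = ‖Q.c0 + (c j - Q.c0)‖ := by rw [← h1]
      _ ≤ ‖Q.c0‖ + ‖c j - Q.c0‖ := norm_add_le _ _
      _ ≤ ‖Q.c0‖ + 1 := by linarith only [hc j]
  have hσs : ContDiff ℝ ∞ (sigG P t0 Ψ Q.l) := sigG_contDiff P Ψ ht0 hΨs Q.l
  have hηs : ContDiff ℝ ∞ (etaG P t0 c) := etaG_contDiff P c ht0
  -- for `x ≤ t0`
  have hη0 : ∀ x ≤ t0, ∀ᶠ y in 𝓝 x, etaG P t0 c y = 0 := by
    intro x hx
    have h1 := etaG_eventuallyEq P c ht0 (inCyc_zero (l := Q.l) ht0 hx)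
    have h2 : x < tq Q.l t0 0 + rr (tq Q.l t0 0) / 4 := by
      have := rr_pos (t := t0) (by linarith only [htst1, h01])
      simp only [tq]
      linarith only [hx, this]
    filter_upwards [h1, Iio_mem_nhds h2] with y hy hy2
    rw [hy]
    exact etaC_left (by simp only [tq]; linarith only [htst1, h01]) _ hy2.le
  have hσ0 : ∀ x ≤ t0, ∀ᶠ y in 𝓝 x, sigG P t0 Ψ Q.l y = Ψ y := by
    intro x hx
    have h1 := sigG_eventuallyEq P Ψ ht0 (inCyc_zero (l := Q.l) ht0 hx)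
    have h2 : x < T1 Q.l (tq Q.l t0 0) + rr (tq Q.l t0 0) / 4 := by
      have h3 := rr_pos (t := t0) (by linarith only [htst1, h01])
      have h4 := T1_ge (l := Q.l) (t := t0) (by linarith only [htst1, h01])
      simp only [tq]
      linarith only [hx, h3, h4]
    filter_upwards [h1, Iio_mem_nhds h2] with y hy hy2
    rw [hy]
    unfold sigC
    rw [eh_left (by simp only [tq]; linarith only [htst1, h01]) hy2.le]
    simp only [zero_div, neg_zero, Real.exp_zero, mul_one]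
  -- curvature
  have hCurv : ∀ x, Curv P.m (sigG P t0 Ψ Q.l) (etaG P t0 c) x ∧
      P.sig0 ≤ sigG P t0 Ψ Q.l x ∧ sigG P t0 Ψ Q.l x ≤ 1 := by
    intro x
    rcases lt_or_ge x t0 with hx | hx
    · have h1 := hσ0 x hx.le
      have h2 := hη0 x hx.le
      refine ⟨(hΨ4 _ x h2).congr h1 EventuallyEq.rfl, ?_, ?_⟩
      · rw [h1.self_of_nhds]
        refine le_trans ?_ (hΨ3 x).1
        unfold Dat.sig0
        have h3 : Real.exp (-(P.eta0 / (2 * P.m + 1))) ≤ 1 := by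
          apply Real.exp_le_one_iff.2
          have := P.heta0
          have : 0 ≤ P.eta0 / (2 * P.m + 1) := by (clear * - this; positivity)
          linarith only [this]
        have := P.hP0
        nlinarith only [h3, this]
      · rw [h1.self_of_nhds]
        exact (hΨ3 x).2
    · set j := idx Q.l t0 x with hj
      have hin := inCyc_idx (l := Q.l) ht0 x
      have h1 := sigG_eventuallyEq P Ψ ht0 hin
      have h2 := etaG_eventuallyEq P c ht0 hin
      have h3 : x ∈ Icc (tq Q.l t0 j) (T3 Q.l (tq Q.l t0 j)) := ⟨idx_ge ht0 hx, hin.2⟩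
      have h4 : ∀ᶠ y in 𝓝 x, Ψ y = P.Pinf + a * y ^ (-(1 / 2) : ℝ) := by
        filter_upwards [Ioi_mem_nhds (show 7 / 16 * t0 < x by linarith only [htst1, h01, hx])] with y hy
        exact hΨ2 y (le_of_lt hy)
      obtain ⟨h5, h6, h7⟩ := hcurv (tq Q.l t0 j) (le_trans h01 (htq j)) (c j) (hcn j) Ψ x h3 h4
      refine ⟨h5.congr h1 h2, ?_, ?_⟩
      · rw [h1.self_of_nhds]; exact h6
      · rw [h1.self_of_nhds]; exact h7
  have hEta : ∀ x, -δ ≤ etaG P t0 c x ∧ etaG P t0 c x ≤ P.eta0 + δ := by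
    intro x
    set j := idx Q.l t0 x with hj
    have hin := inCyc_idx (l := Q.l) ht0 x
    have h2 := (etaG_eventuallyEq P c ht0 hin).self_of_nhds
    rw [h2]
    have hpos : 0 < tq Q.l t0 j := by linarith only [htq j, ht0]
    refine etaC_bounds P.heta0 hKc hpos (c j) ?_ x
    have h6 := h5 (tq Q.l t0 j) (le_trans h05 (htq j))
    rw [div_le_iff₀ hδ] at h6
    have h7 : (Q.l : ℝ) * ‖c j‖ * Kc ≤ Q.l * (‖Q.c0‖ + 1) * Kc :=
      mul_le_mul_of_nonneg_right (mul_le_mul_of_nonneg_left (hcn j) (Nat.cast_nonneg _)) hKc0.le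
    linarith only [h6, h7]
  -- `φ`
  let φ : ℝ → ℝ := fun x => ∫ y in (0 : ℝ)..x, sigG P t0 Ψ Q.l y
  have hφd : ∀ x, HasDerivAt φ (sigG P t0 Ψ Q.l x) x := fun x =>
    intervalIntegral.integral_hasDerivAt_right (hσs.continuous.intervalIntegrable _ _)
      (hσs.continuous.stronglyMeasurableAtFilter _ _) hσs.continuous.continuousAt
  have hφs : ContDiff ℝ ∞ φ := by
    have h1 : deriv φ = sigG P t0 Ψ Q.l := funext fun x => (hφd x).deriv
    have h2 : ContDiff ℝ (∞ + 1) φ := by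
      rw [contDiff_succ_iff_deriv]
      refine ⟨fun x => (hφd x).differentiableAt, by simp, ?_⟩
      rw [h1]
      exact hσs
    simpa using h2
  have hσ1 : ∀ x ≤ 0, sigG P t0 Ψ Q.l x = 1 := fun x hx => by
    rw [(hσ0 x (by linarith only [htst1, h01, hx])).self_of_nhds]
    exact hΨ1 x (by linarith only [htst1, h01, hx])
  have hφ0 : ∀ x ≤ 0, φ x = x := by
    intro x hx
    have h1 : φ x = ∫ y in (0 : ℝ)..x, (1 : ℝ) := by
      refine intervalIntegral.integral_congr fun y hy => ?_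
      rw [uIcc_of_ge hx] at hy
      exact hσ1 y hy.2
    rw [h1]
    simp
  have hφnn : ∀ x, 0 ≤ x → 0 ≤ φ x := by
    intro x hx
    refine intervalIntegral.integral_nonneg hx fun y _ => ?_
    refine le_trans ?_ (hCurv y).2.1
    unfold Dat.sig0
    have := P.hP0
    (clear * - this; positivity)
  -- coefficients
  have hpc : ContDiff ℝ ∞ (fun x => 2 * P.m * sigG P t0 Ψ Q.l x + deriv (etaG P t0 c) x) := by
    have h1 : ContDiff ℝ ∞ (deriv (etaG P t0 c)) := by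
      have h := (contDiff_succ_iff_deriv (n := ∞) (f := etaG P t0 c) (𝕜 := ℝ)).1
        (by simpa only [ENat.coe_top_add_one] using hηs)
      exact h.2.2
    fun_prop
  have hp_core : ∀ x ≤ t0, 2 * P.m * sigG P t0 Ψ Q.l x + deriv (etaG P t0 c) x
      = 2 * P.m * Ψ x := by
    intro x hx
    have h1 : etaG P t0 c =ᶠ[𝓝 x] fun _ => 0 := hη0 x hx
    rw [(hσ0 x hx).self_of_nhds, h1.deriv_eq]
    simp
  have hQ_core : ∀ d, ∀ x ≤ t0, QG P Q.word t0 c d x = P.C d • 1 := by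
    intro d x hx
    rw [QG_eq P Q.word c ht0, (hη0 x hx).self_of_nhds, beta_zero, zero_smul, sub_zero]
  -- the solutions
  have hsol : ∀ d, ∀ i ∈ Q.Sset d, ∃ w w1 : ℝ → (ι d → ℝ), ContDiff ℝ ∞ w ∧
        (∀ x ≤ 0, w x = Real.exp (P.deg d * x) • Pi.single i 1) ∧
        Sol (fun x => 2 * P.m * sigG P t0 Ψ Q.l x + deriv (etaG P t0 c) x)
          (QG P Q.word t0 c d) univ w w1 ∧
        ∃ K', ∀ x, 0 ≤ x → ‖w x‖ ≤ K' * Real.exp (Q.k * φ x) := by
    intro d i hi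
    obtain ⟨w, w1, hw, hw0, hw10⟩ := sol_exists hpc.continuous
      (QG_contDiff P Q.word c ht0 d).continuous 0 (Pi.single i (1 : ℝ) : ι d → ℝ)
      ((P.deg d : ℝ) • (Pi.single i (1 : ℝ) : ι d → ℝ))
    refine ⟨w, w1, (sol_smooth hpc (QG_contDiff P Q.word c ht0 d) hw).1, ?_, hw, ?_⟩
    · -- left of zero
      intro x hx
      let e : ℝ → ι d → ℝ := fun y => Real.exp (P.deg d * y) • Pi.single i 1
      let e1 : ℝ → ι d → ℝ := fun y => (P.deg d * Real.exp (P.deg d * y)) • Pi.single i 1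
      have he : Sol (fun x => 2 * P.m * sigG P t0 Ψ Q.l x + deriv (etaG P t0 c) x)
          (QG P Q.word t0 c d) (Icc x 0) e e1 := by
        constructor
        · intro y _
          have h1 : HasDerivAt (fun y : ℝ => Real.exp (P.deg d * y))
              (P.deg d * Real.exp (P.deg d * y)) y := by
            have h2 : HasDerivAt (fun y : ℝ => P.deg d * y) ((P.deg d : ℝ) * 1) y :=
              (hasDerivAt_id y).const_mul _
            exact h2.exp.congr_deriv (by ring)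
          exact h1.smul_const _
        · intro y hy
          have h1 : HasDerivAt (fun y : ℝ => P.deg d * Real.exp (P.deg d * y))
              (P.deg d * (P.deg d * Real.exp (P.deg d * y))) y := by
            have h2 : HasDerivAt (fun y : ℝ => P.deg d * y) ((P.deg d : ℝ) * 1) y :=
              (hasDerivAt_id y).const_mul _
            exact (h2.exp.congr_deriv (by ring)).const_mul _
          refine (h1.smul_const _).congr_deriv ?_
          have hy0 : y ≤ t0 := by linarith only [htst1, h01, hy.2]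
          have h3 : 2 * P.m * sigG P t0 Ψ Q.l y + deriv (etaG P t0 c) y = 2 * P.m := by
            rw [hp_core y hy0, hΨ1 y (by linarith only [htst1, h01, hy.2]), mul_one]
          simp only [e, e1]
          rw [hQ_core d y hy0, h3, smul_apply,
            one_apply_eq_self, smul_smul, smul_smul, ← sub_smul]
          congr 1
          unfold Dat.C
          ring
      have h := sol_unique_Icc hpc.continuous (QG_contDiff P Q.word c ht0 d).continuous
        (hw.mono (subset_univ _)) he (t₀ := 0) ⟨hx, le_rfl⟩ (by simp [e, hw0]) (by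
          simp only [hw10, mul_zero, Real.exp_zero, mul_one, e1]) x ⟨le_rfl, hx⟩
      exact h.1
    · -- the core
      have hcoreS : Sol (fun x => 2 * P.m * sigG P t0 Ψ Q.l x + deriv (etaG P t0 c) x)
          (QG P Q.word t0 c d) (Icc 0 t0) (fun y => f d y • Pi.single i 1)
          (fun y => f1 d y • Pi.single i 1) := by
        constructor
        · intro y _
          exact ((hfS d).d0 y trivial).smul_const _
        · intro y hy
          refine (((hfS d).d1 y trivial).smul_const _).congr_deriv ?_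
          rw [hQ_core d y hy.2, hp_core y hy.2]
          simp only [smul_apply, one_apply_eq_self, smul_eq_mul, sub_smul, smul_smul]
      have hcw := sol_unique_Icc hpc.continuous (QG_contDiff P Q.word c ht0 d).continuous
        (hw.mono (subset_univ _)) hcoreS (t₀ := 0) ⟨le_rfl, by linarith only [htst1, h01]⟩
        (by simp only [hf0, hw0, one_smul]) (by simp only [hf10, hw10])
      obtain ⟨hwt, hwt1⟩ := hcw t0 ⟨by linarith only [htst1, h01], le_rfl⟩
      have hv : w1 t0 + P.ss d • w t0 = (f1 d t0 + P.ss d * f d t0) • Pi.single i 1 := by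
        rw [hwt, hwt1, add_smul, smul_smul]
      have hz : w1 t0 - P.s d • w t0 = Z 0 d (w1 t0 + P.ss d • w t0) := by
        rw [hv, hZz, hwt, hwt1]
        simp only [Z0, smul_apply, one_apply_eq_self, smul_smul]
        rw [div_mul_cancel₀ _ (hρ d).ne', sub_smul]
      obtain ⟨K', hK'⟩ := hgrowth t0 ht0 Ψ (fun x _ => hΨ3 x) K hK Z c Λ
        (fun j d => le_trans (hZ j d) hε0'.le) hc hOK φ (sigG P t0 Ψ Q.l) hφd
        (fun x => (hCurv x).2.1) d i hi w w1 (fun j => by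
          refine (hw.mono (subset_univ _)).congr (fun x hx => ?_) (fun x hx => ?_)
          · have hin := inCyc_Icc (l := Q.l) (t0 := t0) j hx
            unfold Dat.pC
            rw [(sigG_eventuallyEq P Ψ ht0 hin).self_of_nhds,
              (etaG_eventuallyEq P c ht0 hin).deriv_eq]
          · have hin := inCyc_Icc (l := Q.l) (t0 := t0) j hx
            rw [(QG_eventuallyEq P Q.word c ht0 d hin).self_of_nhds])
        _ hv hz
      -- bound on the core
      obtain ⟨B, hB⟩ := (isCompact_Icc (a := (0 : ℝ)) (b := t0)).exists_bound_of_continuousOn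
        (f := w) (fun x _ => (hw.d0 x trivial).continuousAt.continuousWithinAt)
      refine ⟨max K' B, fun x hx => ?_⟩
      have hexp : 1 ≤ Real.exp (Q.k * φ x) := Real.one_le_exp (mul_nonneg Q.hk (hφnn x hx))
      rcases le_or_gt x t0 with h | h
      · have h1 := hB x ⟨hx, h⟩
        have h2 : 0 ≤ B := le_trans (norm_nonneg _) h1
        calc ‖w x‖ ≤ B := h1
          _ ≤ max K' B := le_max_right _ _
          _ = max K' B * 1 := (mul_one _).symm
          _ ≤ _ := by (clear * - hexp h2; gcongr)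
      · refine le_trans (hK' x h.le) ?_
        gcongr
        exact le_max_left _ _
  choose! w w1 hws hw0 hwS Kw hKw using hsol
  refine ⟨sigG P t0 Ψ Q.l, etaG P t0 c, φ, JG P Q.word t0,
    ∑ d, ∑ i ∈ Q.Sset d, |Kw d i|, hσs, hηs, hφs, hφd, fun x hx => ⟨hσ1 x hx,
      (hη0 x (by linarith only [htst1, h01, hx])).self_of_nhds, hφ0 x hx⟩, fun x => (hCurv x).2, hEta,
    fun x => JG_const P Q.word c ht0 x, fun x => (hCurv x).1, fun d i hi =>
    ⟨w d i, w1 d i, hws d i hi, hw0 d i hi, ?_, fun x hx => ?_⟩⟩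
  · refine (hwS d i hi).congr (fun _ _ => rfl) (fun x _ => ?_)
    rw [QG_eq P Q.word c ht0]
  · refine le_trans (hKw d i hi x hx) ?_
    gcongr
    calc Kw d i ≤ |Kw d i| := le_abs_self _
      _ ≤ ∑ i ∈ Q.Sset d, |Kw d i| :=
        Finset.single_le_sum (f := fun i => |Kw d i|) (fun _ _ => abs_nonneg _) hi
      _ ≤ ∑ d, ∑ i ∈ Q.Sset d, |Kw d i| :=
        Finset.single_le_sum (f := fun d => ∑ i ∈ Q.Sset d, |Kw d i|)
          (fun _ _ => Finset.sum_nonneg fun _ _ => abs_nonneg _) (Finset.mem_univ d)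

/-- The dynamical part, with a bound of `η`. -/
theorem main_eta (P : Dat D ι 𝒥) (Q : Ctl P) {δ : ℝ} (hδ : 0 < δ) :
    ∃ (σ η φ : ℝ → ℝ) (J : ℝ → 𝒥) (K : ℝ),
      ContDiff ℝ ∞ σ ∧ ContDiff ℝ ∞ η ∧ ContDiff ℝ ∞ φ ∧ (∀ x, HasDerivAt φ (σ x) x) ∧
      (∀ x ≤ 0, σ x = 1 ∧ η x = 0 ∧ φ x = x) ∧ (∀ x, P.sig0 ≤ σ x ∧ σ x ≤ 1) ∧
      (∀ x, -δ ≤ η x ∧ η x ≤ P.eta0 + δ) ∧
      (∀ x, (∀ᶠ y in 𝓝 x, J y = J x) ∨ (∀ᶠ y in 𝓝 x, η y = 0)) ∧
      (∀ x, Curv P.m σ η x) ∧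
      ∀ d, ∀ i ∈ Q.Sset d, ∃ w w1 : ℝ → (ι d → ℝ), ContDiff ℝ ∞ w ∧
        (∀ x ≤ 0, w x = Real.exp (P.deg d * x) • Pi.single i 1) ∧
        Sol (fun x => 2 * P.m * σ x + deriv η x)
          (fun x => P.C d • (1 : (ι d → ℝ) →L[ℝ] (ι d → ℝ)) - beta (η x) • P.M (J x) d)
          univ w w1 ∧
        ∀ x, 0 ≤ x → ‖w x‖ ≤ K * Real.exp (Q.k * φ x) :=
  main_of_eta P Q hδ (fun R => curvCycleStmt P Q.l R) (fun a ha => curvCoreStmt P a ha)
    (cycleStepStmt pulseVecAll P Q) (growthStmt P Q)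

end Vale.Agent.P225.H485
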