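import Vale.Agent.P225.Defs

/-!
# P225: radial maps of Euclidean space

`rad ψ x = e^{ψ(log |x|)} x / |x|`: smooth when `ψ` is smooth and `ψ t = t` for `t ≤ 0`, with
derivative `μ (v + (ψ' - 1) ⟨x, v⟩ x / |x|²)`, `μ = e^{ψ(log |x|)} / |x|`.
-/

open Filter Topology
open scoped ContDiff

namespace Vale.Agent.P225.H485

variable {n : ℕ}

/-- The radial map with profile `ψ` in logarithmic coordinates. -/
noncomputable def rad (ψ : ℝ → ℝ) (x : Rn n) : Rn n := (Real.exp (ψ (Real.log ‖x‖)) / ‖x‖) • x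

theorem rad_zero (ψ : ℝ → ℝ) : rad ψ (0 : Rn n) = 0 := by simp [rad]

theorem norm_rad (ψ : ℝ → ℝ) {x : Rn n} (hx : x ≠ 0) :
    ‖rad ψ x‖ = Real.exp (ψ (Real.log ‖x‖)) := by
  have hp := norm_pos_iff.2 hx
  rw [rad, norm_smul, Real.norm_eq_abs, abs_of_pos (by positivity)]
  field_simp

theorem rad_ne_zero (ψ : ℝ → ℝ) {x : Rn n} (hx : x ≠ 0) : rad ψ x ≠ 0 := by
  rw [← norm_pos_iff, norm_rad ψ hx]
  exact Real.exp_pos _

/-- Composition of radial maps. -/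
theorem rad_rad {ψ χ : ℝ → ℝ} (h : ∀ t, ψ (χ t) = t) (x : Rn n) : rad ψ (rad χ x) = x := by
  by_cases hx : x = 0
  · subst hx
    rw [rad_zero, rad_zero]
  · have hp := norm_pos_iff.2 hx
    have h1 := norm_rad χ hx
    conv_lhs => rw [rad, h1, Real.log_exp, h, Real.exp_log hp, rad, smul_smul]
    have e : ‖x‖ / Real.exp (χ (Real.log ‖x‖)) * (Real.exp (χ (Real.log ‖x‖)) / ‖x‖) = 1 := by
      have := Real.exp_pos (χ (Real.log ‖x‖))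
      field_simp
    rw [e, one_smul]

theorem rad_of_norm_le {ψ : ℝ → ℝ} (h0 : ∀ t ≤ 0, ψ t = t) {x : Rn n} (hx : ‖x‖ ≤ 1) :
    rad ψ x = x := by
  by_cases h : x = 0
  · subst h
    exact rad_zero ψ
  · have hp := norm_pos_iff.2 h
    rw [rad, h0 _ (Real.log_nonpos hp.le hx), Real.exp_log hp, div_self hp.ne', one_smul]

theorem rad_contDiff {ψ : ℝ → ℝ} (hψ : ContDiff ℝ ∞ ψ) (h0 : ∀ t ≤ 0, ψ t = t) :
    ContDiff ℝ ∞ (rad ψ : Rn n → Rn n) := by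
  rw [contDiff_iff_contDiffAt]
  intro x
  by_cases hx : x = 0
  · subst hx
    have h : (rad ψ : Rn n → Rn n) =ᶠ[𝓝 0] fun y => y := by
      filter_upwards [Metric.ball_mem_nhds (0 : Rn n) one_pos] with y hy
      rw [mem_ball_zero_iff] at hy
      exact rad_of_norm_le h0 hy.le
    exact contDiffAt_id.congr_of_eventuallyEq h
  · have hn : ContDiffAt ℝ ∞ (fun y : Rn n => ‖y‖) x := contDiffAt_norm ℝ hx
    have hl : ContDiffAt ℝ ∞ (fun y : Rn n => Real.log ‖y‖) x := hn.log (norm_ne_zero_iff.2 hx)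
    have he : ContDiffAt ℝ ∞ (fun y : Rn n => Real.exp (ψ (Real.log ‖y‖))) x :=
      (hψ.contDiffAt.comp x hl).exp
    exact (he.div hn (norm_ne_zero_iff.2 hx)).smul contDiffAt_id

/-- The derivative of a radial map away from the origin. -/
theorem rad_fderiv {ψ : ℝ → ℝ} {s : ℝ} {x : Rn n} (hx : x ≠ 0)
    (hψ : HasDerivAt ψ s (Real.log ‖x‖)) (v : Rn n) :
    fderiv ℝ (rad ψ) x v = (Real.exp (ψ (Real.log ‖x‖)) / ‖x‖) •
      (v + ((s - 1) * (inner ℝ x v / ‖x‖ ^ 2)) • x) := by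
  have hp := norm_pos_iff.2 hx
  have hn : HasFDerivAt (fun y : Rn n => ‖y‖) (‖x‖⁻¹ • innerSL ℝ x) x := by
    have h1 : HasFDerivAt (fun y : Rn n => ‖y‖ ^ 2) (2 • (innerSL ℝ x)) x :=
      (hasStrictFDerivAt_norm_sq x).hasFDerivAt
    have h2 := h1.sqrt (by positivity)
    have e1 : (fun y : Rn n => √(‖y‖ ^ 2)) = fun y => ‖y‖ := by
      ext y
      exact Real.sqrt_sq (norm_nonneg _)
    rw [e1] at h2
    refine h2.congr_fderiv ?_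
    rw [Real.sqrt_sq hp.le]
    ext w
    simp only [smul_apply, nsmul_eq_mul, smul_eq_mul, innerSL_apply_apply]
    push_cast
    field_simp
  have hl : HasFDerivAt (fun y : Rn n => Real.log ‖y‖) (‖x‖⁻¹ • (‖x‖⁻¹ • innerSL ℝ x)) x :=
    hn.log hp.ne'
  have he : HasFDerivAt (fun y : Rn n => Real.exp (ψ (Real.log ‖y‖)))
      (Real.exp (ψ (Real.log ‖x‖)) • (s • (‖x‖⁻¹ • (‖x‖⁻¹ • innerSL ℝ x)))) x :=
    (hψ.comp_hasFDerivAt x hl).exp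
  have hinv : HasFDerivAt (fun y : Rn n => ‖y‖⁻¹) (-(‖x‖ ^ 2)⁻¹ • (‖x‖⁻¹ • innerSL ℝ x)) x :=
    (hasDerivAt_inv hp.ne').comp_hasFDerivAt x hn
  have hm := he.mul hinv
  have hs := hm.smul (hasFDerivAt_id (𝕜 := ℝ) x)
  have hrad : (rad ψ : Rn n → Rn n) =
      (((fun y : Rn n => Real.exp (ψ (Real.log ‖y‖))) * fun y : Rn n => ‖y‖⁻¹) • id) := by
    ext1 y
    rw [rad, div_eq_mul_inv]
    rfl
  rw [hrad, hs.fderiv]
  simp only [add_apply, smul_apply, ContinuousLinearMap.smulRight_apply, innerSL_apply_apply,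
    ContinuousLinearMap.coe_id', smul_eq_mul, id_eq, Pi.mul_apply]
  rw [smul_add, smul_smul, div_eq_mul_inv]
  congr 2
  field_simp
  ring

/-- Norm of the derivative. -/
theorem rad_fderiv_sq {ψ : ℝ → ℝ} {s : ℝ} {x : Rn n} (hx : x ≠ 0)
    (hψ : HasDerivAt ψ s (Real.log ‖x‖)) (v : Rn n) :
    ‖fderiv ℝ (rad ψ) x v‖ ^ 2 = (Real.exp (ψ (Real.log ‖x‖)) / ‖x‖) ^ 2 *
      (‖v‖ ^ 2 + (s ^ 2 - 1) * (inner ℝ x v ^ 2 / ‖x‖ ^ 2)) := by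
  have hp := norm_pos_iff.2 hx
  rw [rad_fderiv hx hψ, norm_smul, mul_pow, Real.norm_eq_abs, sq_abs]
  congr 1
  rw [norm_add_sq_real, inner_smul_right, norm_smul, Real.norm_eq_abs, mul_pow, sq_abs,
    real_inner_comm]
  field_simp
  ring

theorem inner_sq_le {x : Rn n} (hx : x ≠ 0) (v : Rn n) :
    0 ≤ inner ℝ x v ^ 2 / ‖x‖ ^ 2 ∧ inner ℝ x v ^ 2 / ‖x‖ ^ 2 ≤ ‖v‖ ^ 2 := by
  have hp := norm_pos_iff.2 hx
  refine ⟨by positivity, ?_⟩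
  rw [div_le_iff₀ (by positivity), ← mul_pow]
  rw [sq_le_sq]
  have h := abs_real_inner_le_norm x v
  rw [abs_of_nonneg (by positivity : (0 : ℝ) ≤ ‖v‖ * ‖x‖)]
  linarith [mul_comm ‖x‖ ‖v‖]

/-- Two-sided bound of the derivative when `√q ≤ ψ' ≤ 1`. -/
theorem rad_fderiv_bounds {ψ : ℝ → ℝ} {s q : ℝ} (hq : q ≤ s ^ 2) (hs1 : s ^ 2 ≤ 1) {x : Rn n}
    (hx : x ≠ 0) (hψ : HasDerivAt ψ s (Real.log ‖x‖)) (v : Rn n) :
    q * ((Real.exp (ψ (Real.log ‖x‖)) / ‖x‖) ^ 2 * ‖v‖ ^ 2) ≤ ‖fderiv ℝ (rad ψ) x v‖ ^ 2 ∧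
      ‖fderiv ℝ (rad ψ) x v‖ ^ 2 ≤ (Real.exp (ψ (Real.log ‖x‖)) / ‖x‖) ^ 2 * ‖v‖ ^ 2 := by
  obtain ⟨h1, h2⟩ := inner_sq_le hx v
  rw [rad_fderiv_sq hx hψ]
  set μ := (Real.exp (ψ (Real.log ‖x‖)) / ‖x‖) ^ 2 with hμ
  have hμ0 : 0 ≤ μ := sq_nonneg _
  constructor
  · have h3 : q * ‖v‖ ^ 2 ≤ ‖v‖ ^ 2 + (s ^ 2 - 1) * (inner ℝ x v ^ 2 / ‖x‖ ^ 2) := by
      nlinarith [sq_nonneg ‖v‖]
    calc q * (μ * ‖v‖ ^ 2) = μ * (q * ‖v‖ ^ 2) := by ring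
      _ ≤ _ := mul_le_mul_of_nonneg_left h3 hμ0
  · refine mul_le_mul_of_nonneg_left ?_ hμ0
    nlinarith

end Vale.Agent.P225.H485
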